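import Vale.Agent.P354.H974.Defs

set_option linter.unusedSectionVars false

open scoped ContDiff
open MeasureTheory Set Filter Topology

namespace Vale.Agent.P354.H974

open Vale.Agent.P354n

/-- the derivative of the smooth step is bounded -/
lemma st_bdd : ∃ A : ℝ, 0 ≤ A ∧ (∀ x, |_root_.deriv Real.smoothTransition x| ≤ A) ∧
    ∀ x, x < 0 ∨ 1 < x → _root_.deriv Real.smoothTransition x = 0 := by
  have h0 : ∀ x, x < 0 ∨ 1 < x → _root_.deriv Real.smoothTransition x = 0 := by
    rintro x (hx | hx)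
    · have h1 : Real.smoothTransition =ᶠ[𝓝 x] fun _ => 0 := by
        filter_upwards [Iio_mem_nhds hx] with y hy
        exact Real.smoothTransition.zero_of_nonpos (le_of_lt hy)
      rw [h1.deriv_eq]; simp
    · have h1 : Real.smoothTransition =ᶠ[𝓝 x] fun _ => 1 := by
        filter_upwards [Ioi_mem_nhds hx] with y hy
        exact Real.smoothTransition.one_of_one_le (le_of_lt hy)
      rw [h1.deriv_eq]; simp
  have hc : Continuous (_root_.deriv Real.smoothTransition) :=
    (Real.smoothTransition.contDiff (n := 1)).continuous_deriv le_rfl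
  obtain ⟨A, hA⟩ := (isCompact_Icc (a := (0:ℝ)) (b := 1)).exists_bound_of_continuousOn
    hc.continuousOn
  refine ⟨max A 0, le_max_right _ _, fun x => ?_, h0⟩
  by_cases hx : x < 0 ∨ 1 < x
  · rw [h0 x hx, abs_zero]; exact le_max_right _ _
  · push Not at hx
    exact (hA x hx).trans (le_max_left _ _)

/-- the cut off function -/
noncomputable def chi (w1 w2 v : ℝ) : ℝ := 1 - Real.smoothTransition ((v - w1) / (w2 - w1))

lemma chi_mem (w1 w2 v : ℝ) : 0 ≤ chi w1 w2 v ∧ chi w1 w2 v ≤ 1 := by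
  unfold chi
  have h1 := Real.smoothTransition.nonneg ((v - w1) / (w2 - w1))
  have h2 := Real.smoothTransition.le_one ((v - w1) / (w2 - w1))
  constructor <;> linarith

lemma chi_one {w1 w2 v : ℝ} (h : w1 < w2) (hv : v ≤ w1) : chi w1 w2 v = 1 := by
  unfold chi
  rw [Real.smoothTransition.zero_of_nonpos (div_nonpos_of_nonpos_of_nonneg (by linarith)
    (by linarith)), sub_zero]

lemma chi_zero {w1 w2 v : ℝ} (h : w1 < w2) (hv : w2 ≤ v) : chi w1 w2 v = 0 := by
  unfold chi
  rw [Real.smoothTransition.one_of_one_le, sub_self]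
  rw [le_div_iff₀ (by linarith)]
  linarith

lemma chi_cd (w1 w2 : ℝ) : ContDiff ℝ 1 (chi w1 w2) := by
  unfold chi
  have h1 : ContDiff ℝ 1 (fun v : ℝ => (v - w1) / (w2 - w1)) := by fun_prop
  exact contDiff_const.sub ((Real.smoothTransition.contDiff (n := 1)).comp h1)

lemma chi_deriv (w1 w2 v : ℝ) : HasDerivAt (chi w1 w2)
    (-(_root_.deriv Real.smoothTransition ((v - w1) / (w2 - w1)) * (1 / (w2 - w1)))) v := by
  have h1 : HasDerivAt (fun v : ℝ => (v - w1) / (w2 - w1)) (1 / (w2 - w1)) v :=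
    ((hasDerivAt_id v).sub_const w1).div_const _
  have h2 : HasDerivAt Real.smoothTransition
      (_root_.deriv Real.smoothTransition ((v - w1) / (w2 - w1))) ((v - w1) / (w2 - w1)) :=
    ((Real.smoothTransition.contDiff (n := 1)).differentiable (by norm_num) _).hasDerivAt
  have h3 := (HasDerivAt.comp v h2 h1).const_sub 1
  exact h3

lemma chi_deriv_le {A : ℝ} (hA : ∀ x, |_root_.deriv Real.smoothTransition x| ≤ A)
    (h0 : ∀ x, x < 0 ∨ 1 < x → _root_.deriv Real.smoothTransition x = 0) {w1 w2 : ℝ}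
    (h : w1 < w2) (v : ℝ) : |_root_.deriv (chi w1 w2) v| ≤
      (Icc w1 w2).indicator (fun _ => A / (w2 - w1)) v := by
  have hp : 0 < w2 - w1 := by linarith
  rw [(chi_deriv w1 w2 v).deriv, abs_neg, abs_mul, abs_of_pos (one_div_pos.2 hp)]
  by_cases hv : v ∈ Icc w1 w2
  · rw [indicator_of_mem hv, div_eq_mul_one_div A]
    exact mul_le_mul_of_nonneg_right (hA _) (one_div_pos.2 hp).le
  · rw [indicator_of_notMem hv]
    have h1 : (v - w1) / (w2 - w1) < 0 ∨ 1 < (v - w1) / (w2 - w1) := by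
      rw [mem_Icc, not_and_or, not_le, not_le] at hv
      rcases hv with hv | hv
      · exact Or.inl (div_neg_of_neg_of_pos (by linarith) hp)
      · right
        rw [lt_div_iff₀ hp]
        linarith
    rw [h0 _ h1, abs_zero, zero_mul]

/-- the product function -/
lemma box_int {a1 b1 a2 b2 a3 b3 : ℝ} {g : ℝ → ℝ} (hg : Integrable g) :
    Integrable (fun y : R4 => (Icc a1 b1).indicator (fun _ => (1:ℝ)) y.1 *
      (g y.2.1 * ((Icc a2 b2).indicator (fun _ => (1:ℝ)) y.2.2.1 *
        (Icc a3 b3).indicator (fun _ => (1:ℝ)) y.2.2.2))) := by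
  have hI : ∀ a b : ℝ, Integrable ((Icc a b).indicator fun _ : ℝ => (1:ℝ)) := fun a b =>
    (integrable_indicator_iff measurableSet_Icc).2 (by simp)
  exact (hI a1 b1).mul_prod (hg.mul_prod ((hI a2 b2).mul_prod (hI a3 b3)))

lemma int_ind (a b t : ℝ) (h : a ≤ b) : ∫ v : ℝ, (Icc a b).indicator (fun _ => t) v = t * (b - a) := by
  rw [integral_indicator measurableSet_Icc, setIntegral_const]
  simp [Measure.real, Real.volume_Icc, ENNReal.toReal_ofReal (sub_nonneg.2 h), mul_comm]

lemma box_integral {a1 b1 a2 b2 a3 b3 : ℝ} (g : ℝ → ℝ) (h1 : a1 ≤ b1) (h2 : a2 ≤ b2) (h3 : a3 ≤ b3) :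
    ∫ y : R4, (Icc a1 b1).indicator (fun _ => (1:ℝ)) y.1 *
      (g y.2.1 * ((Icc a2 b2).indicator (fun _ => (1:ℝ)) y.2.2.1 *
        (Icc a3 b3).indicator (fun _ => (1:ℝ)) y.2.2.2)) =
      (b1 - a1) * ((∫ v, g v) * ((b2 - a2) * (b3 - a3))) := by
  have e3 : ∫ y : ℝ × ℝ, (Icc a2 b2).indicator (fun _ => (1:ℝ)) y.1 *
      (Icc a3 b3).indicator (fun _ => (1:ℝ)) y.2 = (b2 - a2) * (b3 - a3) := by
    have := integral_prod_mul (μ := (volume : Measure ℝ)) (ν := (volume : Measure ℝ))
      ((Icc a2 b2).indicator (fun _ => (1:ℝ))) ((Icc a3 b3).indicator (fun _ => (1:ℝ)))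
    rw [int_ind _ _ _ h2, int_ind _ _ _ h3, one_mul, one_mul] at this
    exact this
  have e2 : ∫ y : ℝ × ℝ × ℝ, g y.1 * ((Icc a2 b2).indicator (fun _ => (1:ℝ)) y.2.1 *
      (Icc a3 b3).indicator (fun _ => (1:ℝ)) y.2.2) = (∫ v, g v) * ((b2 - a2) * (b3 - a3)) := by
    have := integral_prod_mul (μ := (volume : Measure ℝ)) (ν := (volume : Measure (ℝ × ℝ))) g
      (fun y : ℝ × ℝ => (Icc a2 b2).indicator (fun _ => (1:ℝ)) y.1 *
      (Icc a3 b3).indicator (fun _ => (1:ℝ)) y.2)
    rw [e3] at this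
    exact this
  have := integral_prod_mul (μ := (volume : Measure ℝ)) (ν := (volume : Measure (ℝ × ℝ × ℝ)))
    ((Icc a1 b1).indicator (fun _ => (1:ℝ))) (fun y : ℝ × ℝ × ℝ => g y.1 *
      ((Icc a2 b2).indicator (fun _ => (1:ℝ)) y.2.1 *
      (Icc a3 b3).indicator (fun _ => (1:ℝ)) y.2.2))
  rw [e2, int_ind _ _ _ h1, one_mul] at this
  exact this

/-- the hyperplane has measure 0 -/
lemma plane_null (w : ℝ) : volume {y : R4 | cv y = w} = 0 := by
  have e : {y : R4 | cv y = w} = univ ×ˢ ({w} ×ˢ univ) := by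
    ext y
    simp [cv]
  rw [e]
  have h1 : (volume : Measure R4) = (volume : Measure ℝ).prod (volume : Measure (ℝ × ℝ × ℝ)) := rfl
  have h2 : (volume : Measure (ℝ × ℝ × ℝ)) = (volume : Measure ℝ).prod (volume : Measure (ℝ × ℝ)) :=
    rfl
  rw [h1, Measure.prod_prod, h2, Measure.prod_prod, Real.volume_singleton, zero_mul, mul_zero]

/-- v as a linear form -/
noncomputable def cvL : R4 →L[ℝ] ℝ :=
  (ContinuousLinearMap.fst ℝ ℝ (ℝ × ℝ)).comp (ContinuousLinearMap.snd ℝ ℝ (ℝ × ℝ × ℝ))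

lemma cvL_apply (x : R4) : cvL x = cv x := rfl

lemma cvL_norm : ‖cvL‖ ≤ 1 := by
  refine ContinuousLinearMap.opNorm_le_bound _ zero_le_one fun x => ?_
  rw [one_mul, cvL_apply]
  exact (norm_fst_le x.2).trans (norm_snd_le x)

lemma crd_le (y : R4) : |y.1| ≤ ‖y‖ ∧ |y.2.1| ≤ ‖y‖ ∧ |y.2.2.1| ≤ ‖y‖ ∧ |y.2.2.2| ≤ ‖y‖ :=
  ⟨norm_fst_le y, (norm_fst_le y.2).trans (norm_snd_le y),
    (norm_fst_le y.2.2).trans ((norm_snd_le y.2).trans (norm_snd_le y)),
    (norm_snd_le y.2.2).trans ((norm_snd_le y.2).trans (norm_snd_le y))⟩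

lemma fderiv_cut {φ : R4 → ℝ} (hφ : ContDiff ℝ 1 φ) (w1 w2 : ℝ) (x : R4) :
    ‖fderiv ℝ (fun y => φ y * chi w1 w2 (cv y)) x‖ ≤
      ‖fderiv ℝ φ x‖ + |φ x| * |_root_.deriv (chi w1 w2) (cv x)| := by
  have h1 : HasFDerivAt φ (fderiv ℝ φ x) x := (hφ.differentiable (by norm_num) x).hasFDerivAt
  have h2 : HasFDerivAt (fun y : R4 => cv y) cvL x := cvL.hasFDerivAt
  have h3 : HasDerivAt (chi w1 w2) (_root_.deriv (chi w1 w2) (cv x)) (cv x) :=
    ((chi_cd w1 w2).differentiable (by norm_num) _).hasDerivAt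
  have h4 : HasFDerivAt (fun y : R4 => chi w1 w2 (cv y))
      (_root_.deriv (chi w1 w2) (cv x) • cvL) x := h3.comp_hasFDerivAt x h2
  have h5 : HasFDerivAt (fun y => φ y * chi w1 w2 (cv y))
      (φ x • _root_.deriv (chi w1 w2) (cv x) • cvL + chi w1 w2 (cv x) • fderiv ℝ φ x) x := h1.mul h4
  rw [h5.fderiv]
  refine (norm_add_le _ _).trans ?_
  rw [norm_smul, norm_smul, norm_smul, Real.norm_eq_abs, Real.norm_eq_abs, Real.norm_eq_abs]
  have h6 : |chi w1 w2 (cv x)| ≤ 1 := by
    rw [abs_of_nonneg (chi_mem _ _ _).1]; exact (chi_mem _ _ _).2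
  have h7 : |φ x| * (|_root_.deriv (chi w1 w2) (cv x)| * ‖cvL‖) ≤
      |φ x| * |_root_.deriv (chi w1 w2) (cv x)| := by
    refine mul_le_mul_of_nonneg_left ?_ (abs_nonneg _)
    exact mul_le_of_le_one_right (abs_nonneg _) cvL_norm
  have h8 : |chi w1 w2 (cv x)| * ‖fderiv ℝ φ x‖ ≤ ‖fderiv ℝ φ x‖ :=
    mul_le_of_le_one_left (norm_nonneg _) h6
  linarith

/-- **Integrals of the curvature.** If the integral of phi F over the region v < w is not bounded
for w < 0, then F is big. -/
theorem big_of_int {k : ℝ → ℝ} {F φ : R4 → ℝ} {x : R4} {c : ℝ} (hkm : Measurable k)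
    (hk : InLp 1 k (-c)) (hx : cv x = 0) (hφ : ContDiff ℝ 1 φ)
    (hs : tsupport φ ⊆ Metric.ball x c)
    (hF : ∀ B : ℝ, ∃ w < 0, B < |∫ y in {y | cv y < w}, φ y * F y|) : IsBig k (nullBox x c) F := by
  intro L
  have hφc : HasCompactSupport φ := by
    refine HasCompactSupport.of_support_subset_isCompact (isCompact_closedBall x c) ?_
    exact (subset_tsupport φ).trans (hs.trans Metric.ball_subset_closedBall)
  obtain ⟨M, hM⟩ := hφ.continuous.bounded_above_of_compact_support hφc
  have hM0 : 0 ≤ M := (norm_nonneg _).trans (hM x)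
  obtain ⟨A, hA0, hA, hA'⟩ := st_bdd
  have hc0 : 0 ≤ c := by
    obtain ⟨w, -, hw⟩ := hF 0
    by_contra hcon
    push Not at hcon
    have h1 : ∀ y, φ y = 0 := by
      intro y
      by_contra h2
      have h3 := hs (subset_tsupport φ h2)
      rw [Metric.ball_eq_empty.2 hcon.le] at h3
      exact h3
    simp [h1] at hw
  have hki : Integrable ((Ioo (-c) 0).indicator fun v : ℝ => 1 + |k v|) := by
    rw [integrable_indicator_iff measurableSet_Ioo]
    have h1 : IntegrableOn k (Ioo (-c) 0) := memLp_one_iff_integrable.1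
      ⟨hkm.aestronglyMeasurable, hk⟩
    exact (integrableOn_const (by simp)).add h1.abs
  -- the bounds
  set P : R4 → ℝ := fun y => (Icc (x.1 - c) (x.1 + c)).indicator (fun _ => (1:ℝ)) y.1 *
      ((Ioo (-c) 0).indicator (fun v : ℝ => 1 + |k v|) y.2.1 *
        ((Icc (x.2.2.1 - c) (x.2.2.1 + c)).indicator (fun _ => (1:ℝ)) y.2.2.1 *
        (Icc (x.2.2.2 - c) (x.2.2.2 + c)).indicator (fun _ => (1:ℝ)) y.2.2.2)) with hP
  have hPi : Integrable P := box_int hki
  have hmem : ∀ y, φ y ≠ 0 → y.1 ∈ Icc (x.1 - c) (x.1 + c) ∧ -c < y.2.1 ∧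
      y.2.2.1 ∈ Icc (x.2.2.1 - c) (x.2.2.1 + c) ∧ y.2.2.2 ∈ Icc (x.2.2.2 - c) (x.2.2.2 + c) := by
    intro y hy
    have h1 := hs (subset_tsupport φ hy)
    rw [mem_ball_iff_norm] at h1
    obtain ⟨k1, k2, k3, k4⟩ := crd_le (y - x)
    simp only [Prod.fst_sub, Prod.snd_sub] at k1 k2 k3 k4
    have hx' : x.2.1 = 0 := hx
    rw [hx', sub_zero] at k2
    rw [abs_le] at k1 k2 k3 k4
    refine ⟨⟨by linarith, by linarith⟩, by linarith, ⟨by linarith, by linarith⟩,
      ⟨by linarith, by linarith⟩⟩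
  have hdi : Integrable (fun y => ‖fderiv ℝ φ y‖) :=
    ((hφ.continuous_fderiv (by norm_num)).norm).integrable_of_hasCompactSupport
      (hφc.fderiv (𝕜 := ℝ)).norm
  set N : ℝ := M * (∫ y, P y) + (∫ y, ‖fderiv ℝ φ y‖) + M * A * (2 * c) ^ 3 with hN
  have hP0 : ∀ y, 0 ≤ P y := by
    intro y
    have i1 : ∀ (a b t : ℝ), 0 ≤ (Icc a b).indicator (fun _ : ℝ => (1:ℝ)) t := fun a b t =>
      indicator_nonneg (fun _ _ => zero_le_one) t
    have i2 : ∀ t, 0 ≤ (Ioo (-c) 0).indicator (fun v : ℝ => 1 + |k v|) t := fun t =>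
      indicator_nonneg (fun v _ => by positivity) t
    exact mul_nonneg (i1 _ _ _) (mul_nonneg (i2 _) (mul_nonneg (i1 _ _ _) (i1 _ _ _)))
  -- the point w1
  obtain ⟨w1, hw1, hB1⟩ := hF (|L| * N + 1)
  have hN0 : 0 ≤ N := by
    have h1 : 0 ≤ ∫ y, P y := integral_nonneg hP0
    have h2 : 0 ≤ ∫ y, ‖fderiv ℝ φ y‖ := integral_nonneg fun _ => norm_nonneg _
    positivity
  have hms : ∀ w, MeasurableSet {y : R4 | cv y < w} := fun w =>
    (isOpen_lt (continuous_fst.comp continuous_snd) continuous_const).measurableSet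
  have hint : ∀ w, (∫ y in {y | cv y < w}, φ y * F y) ≠ 0 →
      IntegrableOn (fun y => φ y * F y) {y | cv y < w} := by
    intro w hw
    by_contra hcon
    exact hw (integral_undef hcon)
  have hpos1 : 0 < |∫ y in {y | cv y < w1}, φ y * F y| := by
    have : 0 ≤ |L| * N := mul_nonneg (abs_nonneg _) hN0
    linarith
  have hi1 := hint w1 (abs_pos.1 hpos1)
  obtain ⟨w3, hw3, hB3⟩ := hF (∫ y in {y | cv y < w1}, |φ y * F y|)
  have hpos3 : 0 < |∫ y in {y | cv y < w3}, φ y * F y| :=
    lt_of_le_of_lt (integral_nonneg fun _ => abs_nonneg _) hB3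
  have hi3 := hint w3 (abs_pos.1 hpos3)
  have h13 : w1 < w3 := by
    by_contra hcon
    push Not at hcon
    have h1 : |∫ y in {y | cv y < w3}, φ y * F y| ≤ ∫ y in {y | cv y < w1}, |φ y * F y| := by
      refine (abs_integral_le_integral_abs).trans ?_
      refine setIntegral_mono_set hi1.abs (Eventually.of_forall fun _ => abs_nonneg _) ?_
      exact Eventually.of_forall fun y (hy : cv y < w3) => lt_of_lt_of_le hy hcon
    exact absurd h1 (not_le.2 hB3)
  -- the point w2
  have hlim : Tendsto (fun n : ℕ => ∫ y in {y | w1 ≤ cv y ∧ cv y < w1 + (w3 - w1) / (n + 1)},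
      |φ y * F y|) atTop (𝓝 0) := by
    have hanti : Antitone fun n : ℕ => {y : R4 | w1 ≤ cv y ∧ cv y < w1 + (w3 - w1) / (n + 1)} := by
      intro m n hmn y hy
      refine ⟨hy.1, lt_of_lt_of_le hy.2 ?_⟩
      have h1 : (m:ℝ) ≤ n := Nat.cast_le.2 hmn
      have h2 : 0 < w3 - w1 := by linarith
      gcongr
    have hmeas : ∀ n : ℕ, MeasurableSet
        {y : R4 | w1 ≤ cv y ∧ cv y < w1 + (w3 - w1) / (n + 1)} := fun n =>
      ((isClosed_le continuous_const (continuous_fst.comp continuous_snd)).measurableSet).inter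
        (hms _)
    have h1 := tendsto_setIntegral_of_antitone (μ := volume) (f := fun y => |φ y * F y|) hmeas hanti
      ⟨0, IntegrableOn.mono_set (t := {y | cv y < w3}) hi3.abs fun y hy => by
        have := hy.2
        simp only [Nat.cast_zero, zero_add, div_one] at this
        show cv y < w3
        linarith⟩
    have h2 : (⋂ n : ℕ, {y : R4 | w1 ≤ cv y ∧ cv y < w1 + (w3 - w1) / (n + 1)}) ⊆
        {y | cv y = w1} := by
      intro y hy
      rw [mem_iInter] at hy
      refine le_antisymm ?_ (hy 0).1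
      by_contra hcon
      push Not at hcon
      have hcon' : w1 < cv y := hcon
      obtain ⟨n, hn⟩ := exists_nat_gt ((w3 - w1) / (cv y - w1))
      have h3 := (hy n).2
      have h4 : 0 < cv y - w1 := by linarith
      have h5 : (w3 - w1) / (n + 1) < cv y - w1 := by
        rw [div_lt_iff₀ h4] at hn
        rw [div_lt_iff₀ (by positivity)]
        nlinarith
      linarith
    have h3 : ∫ y in ⋂ n : ℕ, {y : R4 | w1 ≤ cv y ∧ cv y < w1 + (w3 - w1) / (n + 1)},
        |φ y * F y| = 0 := by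
      rw [Measure.restrict_eq_zero.2 (measure_mono_null h2 (plane_null w1)), integral_zero_measure]
    rw [h3] at h1
    exact h1
  obtain ⟨n, hn⟩ := (hlim.eventually (gt_mem_nhds (show (0:ℝ) < 1 / 2 by norm_num))).exists
  set w2 : ℝ := w1 + (w3 - w1) / (n + 1) with hw2
  have h12 : w1 < w2 := by
    have : 0 < (w3 - w1) / (n + 1) := div_pos (by linarith) (by positivity)
    linarith
  have h23 : w2 ≤ w3 := by
    have h1 : (w3 - w1) / (n + 1) ≤ w3 - w1 := div_le_self (by linarith) (by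
      have : (0:ℝ) ≤ n := Nat.cast_nonneg n
      linarith)
    linarith
  have hw20 : w2 < 0 := by linarith
  -- the function
  refine ⟨fun y => φ y * chi w1 w2 (cv y), hφ.mul ((chi_cd w1 w2).comp cvL.contDiff), ?_, ?_⟩
  · have h1 : tsupport (fun y => φ y * chi w1 w2 (cv y)) ⊆ tsupport φ ∩ {y | cv y ≤ w2} := by
      refine closure_minimal ?_ ((isClosed_tsupport φ).inter
        (isClosed_le (continuous_fst.comp continuous_snd) continuous_const))
      intro y hy
      have h2 : φ y * chi w1 w2 (cv y) ≠ 0 := hy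
      refine ⟨subset_tsupport φ (left_ne_zero_of_mul h2), ?_⟩
      by_contra h3
      have h4 : w2 < cv y := not_le.1 h3
      exact right_ne_zero_of_mul h2 (chi_zero h12 h4.le)
    intro y hy
    obtain ⟨h2, h3⟩ := h1 hy
    have h4 := hs h2
    rw [mem_ball_iff_norm] at h4
    exact ⟨h4, lt_of_le_of_lt h3 hw20⟩
  · -- the norm
    have hQi : Integrable (fun y : R4 => M * ((Icc (x.1 - c) (x.1 + c)).indicator
        (fun _ => (1:ℝ)) y.1 * ((Icc w1 w2).indicator (fun _ => A / (w2 - w1)) y.2.1 *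
        ((Icc (x.2.2.1 - c) (x.2.2.1 + c)).indicator (fun _ => (1:ℝ)) y.2.2.1 *
        (Icc (x.2.2.2 - c) (x.2.2.2 + c)).indicator (fun _ => (1:ℝ)) y.2.2.2)))) :=
      (box_int ((integrable_indicator_iff measurableSet_Icc).2 (by simp))).const_mul M
    have hQ := box_integral (a1 := x.1 - c) (b1 := x.1 + c) (a2 := x.2.2.1 - c)
      (b2 := x.2.2.1 + c) (a3 := x.2.2.2 - c) (b3 := x.2.2.2 + c)
      ((Icc w1 w2).indicator (fun _ => A / (w2 - w1))) (by linarith) (by linarith) (by linarith)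
    rw [int_ind _ _ _ h12.le, div_mul_cancel₀ A (by linarith : w2 - w1 ≠ 0)] at hQ
    have hle : ∀ y, ‖(1 + k (cv y)) * |φ y * chi w1 w2 (cv y)| +
        ‖fderiv ℝ (fun y => φ y * chi w1 w2 (cv y)) y‖‖ ≤ M * P y + ‖fderiv ℝ φ y‖ +
        M * ((Icc (x.1 - c) (x.1 + c)).indicator
      (fun _ => (1:ℝ)) y.1 * ((Icc w1 w2).indicator (fun _ => A / (w2 - w1)) y.2.1 *
      ((Icc (x.2.2.1 - c) (x.2.2.1 + c)).indicator (fun _ => (1:ℝ)) y.2.2.1 *
      (Icc (x.2.2.2 - c) (x.2.2.2 + c)).indicator (fun _ => (1:ℝ)) y.2.2.2))) := by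
      intro y
      have h1 := fderiv_cut hφ w1 w2 y
      have hMy : |φ y| ≤ M := by rw [← Real.norm_eq_abs]; exact hM y
      refine (norm_add_le _ _).trans ?_
      rw [norm_norm, Real.norm_eq_abs, abs_mul, abs_abs]
      by_cases hy : φ y = 0
      · rw [hy, zero_mul, abs_zero, mul_zero, zero_add]
        rw [hy, abs_zero, zero_mul, add_zero] at h1
        have h2 : 0 ≤ M * P y := mul_nonneg hM0 (hP0 y)
        have h3 : 0 ≤ M * ((Icc (x.1 - c) (x.1 + c)).indicator
            (fun _ => (1:ℝ)) y.1 * ((Icc w1 w2).indicator (fun _ => A / (w2 - w1)) y.2.1 *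
            ((Icc (x.2.2.1 - c) (x.2.2.1 + c)).indicator (fun _ => (1:ℝ)) y.2.2.1 *
            (Icc (x.2.2.2 - c) (x.2.2.2 + c)).indicator (fun _ => (1:ℝ)) y.2.2.2))) := by
          have i1 : ∀ (a b t : ℝ), 0 ≤ (Icc a b).indicator (fun _ : ℝ => (1:ℝ)) t :=
            fun a b t => indicator_nonneg (fun _ _ => zero_le_one) t
          have i2 : ∀ t, 0 ≤ (Icc w1 w2).indicator (fun _ : ℝ => A / (w2 - w1)) t := fun t =>
            indicator_nonneg (fun v _ => div_nonneg hA0 (by linarith)) t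
          exact mul_nonneg hM0 (mul_nonneg (i1 _ _ _) (mul_nonneg (i2 _)
            (mul_nonneg (i1 _ _ _) (i1 _ _ _))))
        linarith
      · obtain ⟨m1, m2, m3, m4⟩ := hmem y hy
        have h4 : |φ y| * |_root_.deriv (chi w1 w2) (cv y)| ≤
            M * (Icc w1 w2).indicator (fun _ => A / (w2 - w1)) y.2.1 :=
          mul_le_mul hMy (chi_deriv_le hA hA' h12 (cv y)) (abs_nonneg _) hM0
        have h5 : |1 + k (cv y)| * |φ y * chi w1 w2 (cv y)| ≤ M * P y := by
          by_cases hv : cv y < 0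
          · have m2' : y.2.1 ∈ Ioo (-c) 0 := ⟨m2, hv⟩
            have e : P y = 1 + |k y.2.1| := by
              simp only [hP]
              rw [indicator_of_mem m1, indicator_of_mem m2', indicator_of_mem m3,
                indicator_of_mem m4]
              ring
            rw [e, abs_mul, abs_of_nonneg (chi_mem _ _ _).1]
            have h6 : |φ y| * chi w1 w2 (cv y) ≤ M :=
              (mul_le_of_le_one_right (abs_nonneg _) (chi_mem _ _ _).2).trans hMy
            have h7 : 0 ≤ |φ y| * chi w1 w2 (cv y) := mul_nonneg (abs_nonneg _) (chi_mem _ _ _).1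
            have h8 : |1 + k (cv y)| ≤ 1 + |k y.2.1| := by
              have := abs_add_le 1 (k (cv y))
              rw [abs_one] at this
              exact this
            have h9 : 0 ≤ 1 + |k y.2.1| := by positivity
            calc |1 + k (cv y)| * (|φ y| * chi w1 w2 (cv y)) ≤
                (1 + |k y.2.1|) * (|φ y| * chi w1 w2 (cv y)) :=
                  mul_le_mul_of_nonneg_right h8 h7
              _ ≤ (1 + |k y.2.1|) * M := mul_le_mul_of_nonneg_left h6 h9
              _ = M * (1 + |k y.2.1|) := by ring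
          · rw [chi_zero h12 (by push Not at hv; linarith), mul_zero, abs_zero, mul_zero]
            exact mul_nonneg hM0 (hP0 y)
        rw [indicator_of_mem m1, indicator_of_mem m3, indicator_of_mem m4]
        simp only [one_mul, mul_one]
        linarith
    have hnorm : |∫ y, ((1 + k (cv y)) * |φ y * chi w1 w2 (cv y)| +
        ‖fderiv ℝ (fun y => φ y * chi w1 w2 (cv y)) y‖)| ≤ N := by
      rw [← Real.norm_eq_abs]
      have hgi0 : Integrable (fun y => M * P y + ‖fderiv ℝ φ y‖) := (hPi.const_mul M).add hdi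
      have hgi := hgi0.add hQi
      refine (norm_integral_le_of_norm_le hgi (Eventually.of_forall hle)).trans (le_of_eq ?_)
      have e1 := integral_add hgi0 hQi
      have e2 := integral_add (hPi.const_mul M) hdi
      rw [e2, integral_const_mul, integral_const_mul, hQ] at e1
      refine e1.trans ?_
      rw [hN]
      ring
    -- the integral
    have hprod : ∫ y, φ y * chi w1 w2 (cv y) * F y =
        (∫ y in {y | cv y < w1}, φ y * F y) +
          ∫ y in {y | w1 ≤ cv y ∧ cv y < w2}, φ y * F y * chi w1 w2 (cv y) := by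
      have hm2 : MeasurableSet {y : R4 | w1 ≤ cv y ∧ cv y < w2} :=
        ((isClosed_le continuous_const (continuous_fst.comp continuous_snd)).measurableSet).inter
          (hms _)
      have e0 : (fun y => φ y * chi w1 w2 (cv y) * F y) = fun y =>
          ({y : R4 | cv y < w1}).indicator (fun y => φ y * F y) y +
          ({y : R4 | w1 ≤ cv y ∧ cv y < w2}).indicator (fun y => φ y * F y * chi w1 w2 (cv y)) y := by
        funext y
        by_cases h1 : cv y < w1
        · rw [indicator_of_mem (show y ∈ {y : R4 | cv y < w1} from h1),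
            indicator_of_notMem (fun h => absurd h1 (not_lt.2 h.1)), chi_one h12 h1.le]
          ring
        · rw [indicator_of_notMem (show y ∉ {y : R4 | cv y < w1} from h1)]
          by_cases h2 : cv y < w2
          · rw [indicator_of_mem (show y ∈ {y : R4 | w1 ≤ cv y ∧ cv y < w2} from
              ⟨not_lt.1 h1, h2⟩)]
            ring
          · rw [indicator_of_notMem (fun h => h2 h.2), chi_zero h12 (not_lt.1 h2)]
            ring
      have hi2 : IntegrableOn (fun y => φ y * F y * chi w1 w2 (cv y))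
          {y | w1 ≤ cv y ∧ cv y < w2} := by
        have h1 : IntegrableOn (fun y => φ y * F y) {y | w1 ≤ cv y ∧ cv y < w2} :=
          hi3.mono_set fun y hy => lt_of_lt_of_le hy.2 h23
        refine Integrable.mul_bdd (c := 1) h1 ?_ (Eventually.of_forall fun y => ?_)
        · exact (((chi_cd w1 w2).continuous.comp
            (continuous_fst.comp continuous_snd)).aestronglyMeasurable)
        · rw [Real.norm_eq_abs, abs_of_nonneg (chi_mem _ _ _).1]
          exact (chi_mem _ _ _).2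
      rw [e0, integral_add ((integrable_indicator_iff (hms _)).2 hi1)
        ((integrable_indicator_iff hm2).2 hi2), integral_indicator (hms _),
        integral_indicator hm2]
    have hsmall : |∫ y in {y | w1 ≤ cv y ∧ cv y < w2}, φ y * F y * chi w1 w2 (cv y)| < 1 / 2 := by
      refine lt_of_le_of_lt ?_ hn
      rw [← Real.norm_eq_abs]
      refine norm_integral_le_of_norm_le (IntegrableOn.mono_set (t := {y | cv y < w3}) hi3.abs
        fun y hy => lt_of_lt_of_le hy.2 h23) (Eventually.of_forall fun y => ?_)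
      rw [norm_mul, Real.norm_eq_abs, Real.norm_eq_abs (chi _ _ _), abs_of_nonneg (chi_mem _ _ _).1]
      exact mul_le_of_le_one_right (abs_nonneg _) (chi_mem _ _ _).2
    rw [hprod]
    have h1 : L * ∫ y, ((1 + k (cv y)) * |φ y * chi w1 w2 (cv y)| +
        ‖fderiv ℝ (fun y => φ y * chi w1 w2 (cv y)) y‖) ≤ |L| * N := by
      refine (le_abs_self _).trans ?_
      rw [abs_mul]
      exact mul_le_mul_of_nonneg_left hnorm (abs_nonneg _)
    have h2 := abs_sub_abs_le_abs_sub (∫ y in {y | cv y < w1}, φ y * F y)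
      (-∫ y in {y | w1 ≤ cv y ∧ cv y < w2}, φ y * F y * chi w1 w2 (cv y))
    rw [abs_neg, sub_neg_eq_add] at h2
    linarith

end Vale.Agent.P354.H974
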