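import Vale.Agent.P354.H251.DefsN2

open scoped ContDiff
open MeasureTheory Set Filter Topology

namespace Vale.Agent.P354.H974

open Vale.Agent.P354n

/-- The function f is locally Lipschitz on D. -/
def IsLip (f : R4 → ℝ) (D : Set R4) : Prop := LocallyLipschitzOn D f

/-- The vector with components a in the frame du, dv + s1 d1 + s2 d2, d1, d2, where s1 = C 4 and
s2 = C 5 are the shifts, and du, dv, d1, d2 are the coordinate vectors. -/
def fr (C : ℕ → R4 → ℝ) (x a : R4) : R4 := (cu a, cv a, c1 a + C 4 x * cv a, c2 a + C 5 x * cv a)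

/-- The function F is big on D, as a distribution: the integrals of phi F, for functions phi of
class C^1 with support in D, are not bounded by a multiple of the integral of
(1 + k(v)) |phi| + |d phi|. -/
def IsBig (k : ℝ → ℝ) (D : Set R4) (F : R4 → ℝ) : Prop :=
  ∀ L : ℝ, ∃ φ : R4 → ℝ, ContDiff ℝ 1 φ ∧ tsupport φ ⊆ D ∧
    L * ∫ x, ((1 + k (cv x)) * |φ x| + ‖fderiv ℝ φ x‖) < |∫ x, φ x * F x|

/-- The curve a ends at a point z of a null hypersurface v = 0 where the curvature blows up: the
v derivatives of gAB and om are bounded by an integrable function k(v), and near every point of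
v = 0 some component of the curvature in the frame above is big. -/
def EndsAtBlowup (M : Spc) (a : ℝ → M.pt) : Prop :=
  ∃ e C z r K k G, IsDNBox M e C (nullBox z r) r K k (fun _ => K) ∧ cv z = 0 ∧
    EndsAt a e (nullBox z r) z ∧
    (∀ x ∈ nullBox z r, C 6 x = 0 ∧ C 7 x = 0 ∧ IsConn (M.g e) G x) ∧
    ∀ x, cv x = 0 → ‖x - z‖ < r → ∀ c > 0, ∃ b1 b2 b3 b4, IsBig k (nullBox x c) fun y =>
      Riem (M.g e) G y (fr C y b1) (fr C y b2) (fr C y b3) (fr C y b4)

/-- The curve a ends at a point z of the sphere u = v = 0 where the null hypersurfaces u = 0 and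
v = 0 meet; curves that end elsewhere on these end where the curvature blows up. -/
def EndsAtBlowupCorner (M : Spc) (a : ℝ → M.pt) : Prop :=
  ∃ e C z r K k, IsDNBox M e C (cornerBox z r) r K k k ∧ cu z = 0 ∧ cv z = 0 ∧
    EndsAt a e (cornerBox z r) z ∧ ∀ b, IsFutureCurve M 0 (Ico 0 1) b → ∀ y,
      EndsAt b e (cornerBox z r) y → ‖y - z‖ < r → cu y * cv y = 0 → cu y + cv y < 0 →
      EndsAtBlowup M b

/-- The three kinds of ends of future timelike curves. -/
def CurvEnds (M : Spc) (a : ℝ → M.pt) : Prop :=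
  EndsAtBlowup M a ∨ EndsAtBlowupCorner M a ∨ IsFar M a

/-- Every future timelike curve without future end point has one of these kinds of ends. -/
def AllCurvEnd (M : Spc) : Prop :=
  ∀ a, IsFutureCurve M 0 (Ico 0 1) a → (∀ x, ¬ Tendsto a (𝓝[<] 1) (𝓝 x)) → CurvEnds M a

end Vale.Agent.P354.H974
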