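import Vale.Agent.P354.H974.Crit
import Vale.Agent.P354.H251.N2

set_option linter.unusedSectionVars false

open scoped ContDiff
open MeasureTheory Set Filter Topology

namespace Vale.Agent.P354.H974

open Vale.Agent.P354n
open Vale.Agent.P354cb (mm mm_mp mm_emb)
open Vale.Agent.P354c (pp pp_mm pp_contDiff)
open Vale.Agent.P354p.Ex (LLe ll)

/-- the curvature of the plane wave -/
noncomputable def rho (A : ℝ → ℝ) (v : ℝ) : ℝ :=
  _root_.deriv (_root_.deriv A) v / 2 - (_root_.deriv A v) ^ 2 / (4 * A v)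

/-- the integral over v < w -/
lemma int_pp {Φ : P354w.P3 → ℝ} {η κ : ℝ → ℝ} {F : R4 → ℝ} {w : ℝ} (hw : w < 0)
    (hη : ∀ v, η v ≠ 0 → -1 < v) (hF : ∀ y, -1 < cv y → cv y < 0 → F y = κ (cv y)) :
    ∫ y in {y : R4 | cv y < w}, pp Φ η y * F y = (∫ v in Iio w, η v * κ v) * ∫ y, Φ y := by
  have hms : MeasurableSet {y : R4 | cv y < w} :=
    (isOpen_lt (continuous_fst.comp continuous_snd) continuous_const).measurableSet
  rw [← integral_indicator hms, ← mm_mp.integral_comp mm_emb]
  have e : ∀ p : ℝ × P354w.P3, ({y : R4 | cv y < w}).indicator (fun y => pp Φ η y * F y) (mm p) =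
      (Iio w).indicator (fun v => η v * κ v) p.1 * Φ p.2 := by
    rintro ⟨v, y⟩
    by_cases hv : v < w
    · rw [indicator_of_mem (show v ∈ Iio w from hv),
        indicator_of_mem (show mm (v, y) ∈ {y : R4 | cv y < w} from hv), pp_mm]
      by_cases h0 : η v = 0
      · rw [h0]; ring
      · rw [hF _ (show -1 < cv (mm (v, y)) from hη v h0) (show cv (mm (v, y)) < 0 from by
          have : cv (mm (v, y)) = v := rfl
          rw [this]; linarith)]
        have : cv (mm (v, y)) = v := rfl
        rw [this]; ring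
    · rw [indicator_of_notMem (show v ∉ Iio w from hv),
        indicator_of_notMem (show mm (v, y) ∉ {y : R4 | cv y < w} from hv), zero_mul]
  simp only [e]
  have h := integral_prod_mul (μ := (volume : Measure ℝ)) (ν := (volume : Measure P354w.P3))
    ((Iio w).indicator fun v => η v * κ v) (fun y => Φ y)
  rw [integral_indicator measurableSet_Iio] at h
  exact h

/-- **The curvature of a plane wave is big if the first derivative is unbounded.** -/
theorem big_wave {A : ℝ → ℝ} (hA : ContDiffOn ℝ ∞ A (Ioo (-1) 0)) (hA2 : ∀ v, 2 ≤ A v)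
    {a : ℝ} (ha : 0 ≤ a) (hlow : ∀ v ∈ Ioo (-(1 / 2) : ℝ) 0, LLe a 0 v / 5 ≤ -_root_.deriv A v)
    {k : ℝ → ℝ} (hkm : Measurable k) (hk : Integrable k) {x : R4} (hx : cv x = 0) {c : ℝ}
    (hc : 0 < c) {F : R4 → ℝ} (hF : ∀ y, -1 < cv y → cv y < 0 → F y = rho A (cv y)) :
    IsBig k (nullBox x c) F := by
  have hP3 : Measure.IsAddHaarMeasure (volume : Measure P354w.P3) := P354w.haarP3
  set y0 : P354w.P3 := (x.2.2.1, x.1, x.2.2.2) with hy0
  set d : ℝ := min c 1 with hd
  have hd0 : 0 < d := lt_min hc one_pos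
  have hdc : d ≤ c := min_le_left _ _
  have hd1 : d ≤ 1 := min_le_right _ _
  let Φ : ContDiffBump y0 := ⟨d / 4, d / 2, by positivity, by linarith only [hd0]⟩
  let η : ContDiffBump (0 : ℝ) := ⟨d / 4, d / 2, by positivity, by linarith only [hd0]⟩
  have hΦ1 : ContDiff ℝ 1 (Φ : P354w.P3 → ℝ) := Φ.contDiff
  have hΦp : 0 < ∫ y, Φ y := Φ.integral_pos
  have hη1 : ContDiff ℝ 1 (η : ℝ → ℝ) := η.contDiff
  have hη0 : ∀ v, η v ≠ 0 → |v| < d / 2 := by
    intro v hv
    have h1 : v ∈ Function.support (η : ℝ → ℝ) := hv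
    rw [η.support_eq, Metric.mem_ball, Real.dist_eq, sub_zero] at h1
    exact h1
  have hη1' : ∀ v, |v| ≤ d / 4 → η v = 1 := by
    intro v hv
    apply η.one_of_mem_closedBall
    rw [Metric.mem_closedBall, Real.dist_eq, sub_zero]
    exact hv
  have hk' : InLp 1 k (-c) := (memLp_one_iff_integrable.2 (hk.integrableOn (s := Ioo (-c) 0))).2
  refine big_of_int (φ := pp Φ η) hkm hk' hx (pp_contDiff hΦ1 hη1) ?_ fun B => ?_
  · have h1 : tsupport (pp Φ η) ⊆ {w : R4 | |w.2.1| ≤ d / 2 ∧
        ((w.2.2.1, w.1, w.2.2.2) : P354w.P3) ∈ Metric.closedBall y0 (d / 2)} := by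
      refine closure_minimal ?_ ?_
      · intro w hw
        have h2 : η w.2.1 * Φ (w.2.2.1, w.1, w.2.2.2) ≠ 0 := hw
        refine ⟨(hη0 _ (left_ne_zero_of_mul h2)).le, ?_⟩
        have h5 : ((w.2.2.1, w.1, w.2.2.2) : P354w.P3) ∈ Function.support (Φ : P354w.P3 → ℝ) :=
          right_ne_zero_of_mul h2
        rw [Φ.support_eq] at h5
        exact Metric.ball_subset_closedBall h5
      · have k1 : Continuous fun w : R4 => |w.2.1| := by fun_prop
        have k2 : Continuous fun w : R4 => ((w.2.2.1, w.1, w.2.2.2) : P354w.P3) := by fun_prop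
        exact (isClosed_le k1 continuous_const).inter (Metric.isClosed_closedBall.preimage k2)
    intro w hw
    obtain ⟨h2, h3⟩ := h1 hw
    rw [Metric.mem_closedBall, dist_eq_norm] at h3
    have h4 : ((w.2.2.1, w.1, w.2.2.2) : P354w.P3) - y0 =
        (w.2.2.1 - x.2.2.1, w.1 - x.1, w.2.2.2 - x.2.2.2) := rfl
    rw [h4] at h3
    have k1 : |w.2.2.1 - x.2.2.1| ≤ d / 2 := (norm_fst_le ((w.2.2.1 - x.2.2.1, w.1 - x.1,
      w.2.2.2 - x.2.2.2) : P354w.P3)).trans h3
    have k2 : |w.1 - x.1| ≤ d / 2 := ((norm_fst_le ((w.1 - x.1,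
      w.2.2.2 - x.2.2.2) : ℝ × ℝ)).trans (norm_snd_le ((w.2.2.1 - x.2.2.1, w.1 - x.1,
      w.2.2.2 - x.2.2.2) : P354w.P3))).trans h3
    have k3 : |w.2.2.2 - x.2.2.2| ≤ d / 2 := ((norm_snd_le ((w.1 - x.1,
      w.2.2.2 - x.2.2.2) : ℝ × ℝ)).trans (norm_snd_le ((w.2.2.1 - x.2.2.1, w.1 - x.1,
      w.2.2.2 - x.2.2.2) : P354w.P3))).trans h3
    have hx' : x.2.1 = 0 := hx
    rw [mem_ball_iff_norm]
    have h5 : ‖w - x‖ ≤ d / 2 := by
      refine Vale.Agent.P354.norm_P4_le.2 ?_
      simp only [Prod.fst_sub, Prod.snd_sub]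
      exact ⟨k2, by rw [hx', sub_zero]; exact h2, k1, k3⟩
    linarith only [hd0, h5, hdc]
  · -- the one dimensional integrals
    have hA1 : ContDiffOn ℝ ∞ (_root_.deriv A) (Ioo (-1) 0) :=
      ((contDiffOn_infty_iff_deriv_of_isOpen isOpen_Ioo).1 hA).2
    have hA3 : ContDiffOn ℝ ∞ (_root_.deriv (_root_.deriv A)) (Ioo (-1) 0) :=
      ((contDiffOn_infty_iff_deriv_of_isOpen isOpen_Ioo).1 hA1).2
    have hρc : ContinuousOn (rho A) (Ioo (-1) 0) := by
      unfold rho
      refine (hA3.continuousOn.div_const 2).sub ((hA1.continuousOn.pow 2).div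
        (continuousOn_const.mul hA.continuousOn) fun v _ => ?_)
      have := hA2 v
      linarith
    set v0 : ℝ := -(d / 4) with hv0
    set K0 : ℝ := ∫ v in Iio v0, η v * rho A v with hK0
    have hlim : Tendsto (fun T : ℝ => -Real.exp (-T)) atTop (𝓝 (-0)) :=
      (Real.tendsto_exp_neg_atTop_nhds_zero).neg
    set R : ℝ := 10 * ((B + 1) / (∫ y, Φ y) + |K0| - _root_.deriv A v0 / 2) with hR
    obtain ⟨T, hT1, hT2⟩ := ((hlim.eventually (Ioi_mem_nhds (show v0 < -0 by
      rw [hv0]; linarith))).and (eventually_gt_atTop R)).exists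
    set w : ℝ := -Real.exp (-T) with hw
    have hw0 : w < 0 := by rw [hw]; linarith [Real.exp_pos (-T)]
    have hwv : v0 < w := hT1
    refine ⟨w, hw0, ?_⟩
    rw [int_pp hw0 (fun v hv => by
      have := hη0 v hv
      rw [abs_lt] at this
      linarith [this.1]) hF]
    have hsub : Icc (-(d / 2)) w ⊆ Ioo (-1 : ℝ) 0 := fun v hv => ⟨by linarith [hv.1], by
      linarith [hv.2]⟩
    have hi : IntegrableOn (fun v => η v * rho A v) (Iio w) := by
      have h1 : IntegrableOn (fun v => η v * rho A v) (Icc (-(d / 2)) w) :=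
        ((hη1.continuous.continuousOn).mul (hρc.mono hsub)).integrableOn_Icc
      refine h1.of_forall_sdiff_eq_zero measurableSet_Iio fun v hv => ?_
      have h2 : η v = 0 := by
        by_contra h3
        have h4 := hη0 v h3
        rw [abs_lt] at h4
        exact hv.2 ⟨h4.1.le, le_of_lt hv.1⟩
      rw [h2, zero_mul]
    have hsplit : ∫ v in Iio w, η v * rho A v = K0 + ∫ v in v0..w, rho A v := by
      have e1 : Iio w = Iio v0 ∪ Ico v0 w := (Iio_union_Ico_eq_Iio hwv.le).symm
      have hdis : Disjoint (Iio v0) (Ico v0 w) := by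
        rw [Set.disjoint_left]
        intro v h1 h2
        exact absurd h2.1 (not_le.2 h1)
      rw [e1, setIntegral_union hdis measurableSet_Ico
        (hi.mono_set (fun v hv => lt_trans hv hwv)) (hi.mono_set fun v hv => hv.2)]
      congr 1
      rw [intervalIntegral.integral_of_le hwv.le, integral_Ioc_eq_integral_Ioo,
        integral_Ico_eq_integral_Ioo]
      refine setIntegral_congr_fun measurableSet_Ioo fun v hv => ?_
      have h1 : η v = 1 := hη1' v (by
        rw [abs_le]
        constructor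
        · linarith [hv.1]
        · linarith [hv.2])
      show η v * rho A v = rho A v
      rw [h1, one_mul]
    have hIcc : uIcc v0 w ⊆ Ioo (-1 : ℝ) 0 := by
      rw [uIcc_of_le hwv.le]
      intro v hv
      exact ⟨by linarith [hv.1], by linarith [hv.2]⟩
    have hftc : ∫ v in v0..w, _root_.deriv (_root_.deriv A) v =
        _root_.deriv A w - _root_.deriv A v0 := by
      refine intervalIntegral.integral_eq_sub_of_hasDerivAt (fun v hv => ?_)
        ((hA3.continuousOn.mono hIcc).intervalIntegrable)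
      exact ((hA1.differentiableOn (by simp)).differentiableAt
        (isOpen_Ioo.mem_nhds (hIcc hv))).hasDerivAt
    have hJc : ContinuousOn (fun v => (_root_.deriv A v) ^ 2 / (4 * A v)) (Ioo (-1) 0) :=
      (hA1.continuousOn.pow 2).div (continuousOn_const.mul hA.continuousOn) fun v _ => by
        have := hA2 v
        linarith
    have hJ : 0 ≤ ∫ v in v0..w, (_root_.deriv A v) ^ 2 / (4 * A v) := by
      refine intervalIntegral.integral_nonneg hwv.le fun v _ => ?_
      have := hA2 v
      positivity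
    have hQ : ∫ v in v0..w, rho A v = (_root_.deriv A w - _root_.deriv A v0) / 2 -
        ∫ v in v0..w, (_root_.deriv A v) ^ 2 / (4 * A v) := by
      unfold rho
      rw [intervalIntegral.integral_sub
        (((hA3.continuousOn.mono hIcc).intervalIntegrable).div_const 2)
        ((hJc.mono hIcc).intervalIntegrable), intervalIntegral.integral_div, hftc]
    have hlw := hlow w ⟨by linarith, hw0⟩
    have hLL : 1 + T ≤ LLe a 0 w := by
      rw [P354v.LLe_in (by linarith) hw0]
      have h1 : -w = Real.exp (-T) := by rw [hw]; ring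
      rw [h1, ll, Real.log_exp]
      have h2 : 1 ≤ Real.exp (-T) ^ (-a) := by
        refine Real.one_le_rpow_of_pos_of_le_one_of_nonpos (Real.exp_pos _) ?_ (by linarith)
        linarith
      have h3 : 0 ≤ 1 - -T := by
        have h4 : Real.exp (-T) ≤ 1 := by linarith
        rw [Real.exp_le_one_iff] at h4
        linarith
      nlinarith
    have h1 : ∫ v in v0..w, rho A v ≤ -(1 + T) / 10 - _root_.deriv A v0 / 2 := by
      rw [hQ]
      linarith
    rw [hsplit, abs_mul, abs_of_pos hΦp]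
    have h2 : R / 10 < (1 + T) / 10 := by linarith
    have h3 : (B + 1) / (∫ y, Φ y) < |K0 + ∫ v in v0..w, rho A v| := by
      have h4 : -(K0 + ∫ v in v0..w, rho A v) ≤ |K0 + ∫ v in v0..w, rho A v| := neg_le_abs _
      have h5 : K0 ≤ |K0| := le_abs_self _
      have h6 : R / 10 = (B + 1) / (∫ y, Φ y) + |K0| - _root_.deriv A v0 / 2 := by
        rw [hR]; ring
      linarith
    rw [div_lt_iff₀ hΦp] at h3
    linarith

end Vale.Agent.P354.H974
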