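import Vale.Agent.P354.H974.Ex

set_option linter.unusedSectionVars false

open scoped ContDiff
open MeasureTheory Set Filter Topology

namespace Vale.Agent.P354.H974

open Vale.Agent.P354n
open Vale.Agent.P354v (Pb Db pb CD lim_exists curve_data rRiem)
open Vale.Agent.P354v.T (PD Mod AA BB DA DB gg GC riem gg_GG AA_bd BB_bd MM VV io c0 spacetime_mm
  mod_true mod_false extension K2 F2 pdat)
open Vale.Agent.P354v.T.N (CN kw kw_meas kw_int dnbox far gh vacuum conn_pb)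

section

variable [PD]

lemma fr_CN (x a : R4) : fr CN x a = a := by
  have h4 : CN 4 x = 0 := rfl
  have h5 : CN 5 x = 0 := rfl
  unfold fr
  rw [h4, h5, zero_mul, add_zero, add_zero]
  rfl

lemma riemA {x : R4} (hx : x ∈ Db 0) :
    rRiem gg GC x (0, 1, 0, 0) (0, 0, 1, 0) (0, 1, 0, 0) (0, 0, 1, 0) = rho AA (cv x) := by
  obtain ⟨A2, B2, hA2, hB2, -⟩ := PD.ok.vac (cv x) ⟨hx.1, by
    have := hx.2
    rw [Nat.cast_zero] at this
    exact this⟩
  have hA := (AA_bd (cv x)).1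
  have hA0 : AA (cv x) ≠ 0 := by linarith
  rw [riem hx hA2 hB2, gg_GG, gg_GG]
  unfold rho
  rw [hA2.deriv]
  simp only [P354p.cu, P354p.cv, P354p.c1, P354p.c2, cv]
  ring

lemma riemB {x : R4} (hx : x ∈ Db 0) :
    rRiem gg GC x (0, 1, 0, 0) (0, 0, 0, 1) (0, 1, 0, 0) (0, 0, 0, 1) = rho BB (cv x) := by
  obtain ⟨A2, B2, hA2, hB2, -⟩ := PD.ok.vac (cv x) ⟨hx.1, by
    have := hx.2
    rw [Nat.cast_zero] at this
    exact this⟩
  have hA := (BB_bd (cv x)).1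
  have hA0 : BB (cv x) ≠ 0 := by linarith
  rw [riem hx hA2 hB2, gg_GG, gg_GG]
  unfold rho
  rw [hB2.deriv]
  simp only [P354p.cu, P354p.cv, P354p.c1, P354p.c2, cv]
  ring

variable {S : P354p.Spc} {e : S.Chart} {φ : S.pt → Pb 0} {ψ : Pb 0 → S.pt}

/-- curves which tend to a point of v = 0 -/
lemma front_b (h : Mod S e φ ψ) {a : ℝ → S.pt} {z : R4} (hz : cv z = 0)
    (ht : Tendsto (fun t => (φ (a t)).1) (𝓝[<] 1) (𝓝 z)) :
    EndsAtBlowup (P354n.Dn S) a := by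
  have hg : S.g e = gg := funext fun y => funext fun a => funext fun b => h.g y a b
  refine ⟨e, CN, z, 1 / 2, PD.K, kw, GC, dnbox h hz, hz, ⟨?_, ?_⟩, fun x hx => ⟨rfl, rfl, ?_⟩,
    fun x hx _ c hc => ?_⟩
  · have h3 : ∀ᶠ t in 𝓝[<] (1:ℝ), (φ (a t)).1 ∈ Metric.ball z (1 / 2) :=
      ht.eventually (Metric.ball_mem_nhds _ (by norm_num))
    filter_upwards [h3] with t ht'
    rw [mem_ball_iff_norm] at ht'
    have h4 := (φ (a t)).2.2
    rw [Nat.cast_zero] at h4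
    refine ⟨h.on _, ?_⟩
    show P354p.co e (a t) ∈ nullBox z (1 / 2)
    rw [h.co]
    exact ⟨ht', h4⟩
  · refine ht.congr fun t => ?_
    exact (h.co (a t)).symm
  · show IsConn (S.g e) GC x
    rw [hg]
    intro a b c
    have h := Vale.Agent.P354v.T.conn (P354v.T.N.box_sub hz hx) a b c
    rw [two_mul]
    exact h
  · have hmem : ∀ y : R4, -1 < cv y → cv y < 0 → y ∈ Db 0 := fun y k1 k2 =>
      ⟨k1, by rw [Nat.cast_zero]; exact k2⟩
    rcases PD.ok.low0 with k | k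
    · refine ⟨(0, 1, 0, 0), (0, 0, 1, 0), (0, 1, 0, 0), (0, 0, 1, 0), ?_⟩
      refine big_wave PD.ok.sA (fun v => (AA_bd v).1) PD.ok.a0 k kw_meas kw_int hx hc
        fun y k1 k2 => ?_
      show Riem (S.g e) GC y _ _ _ _ = _
      rw [hg, fr_CN, fr_CN]
      exact riemA (hmem y k1 k2)
    · refine ⟨(0, 1, 0, 0), (0, 0, 0, 1), (0, 1, 0, 0), (0, 0, 0, 1), ?_⟩
      refine big_wave PD.ok.sB (fun v => (BB_bd v).1) PD.ok.a0 k kw_meas kw_int hx hc
        fun y k1 k2 => ?_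
      show Riem (S.g e) GC y _ _ _ _ = _
      rw [hg, fr_CN, fr_CN]
      exact riemB (hmem y k1 k2)

/-- all curves end -/
theorem ends_b (h : Mod S e φ ψ) {a : ℝ → S.pt}
    (ha : IsFutureCurve (P354n.Dn S) 0 (Ico 0 1) a)
    (hno : ∀ p, ¬ Tendsto a (𝓝[<] 1) (𝓝 p)) : CurvEnds (P354n.Dn S) a := by
  have ha' : P354p.IsFutureCurve S 0 (Ico 0 1) a := ha.up le_rfl
  have hb' := h.to ha'
  by_cases hbd : ∃ B, ∀ t ∈ Ioo (1 / 2 : ℝ) 1, cu (φ (a t)).1 ≤ B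
  · obtain ⟨B, hB⟩ := hbd
    obtain ⟨z, hz, h1, h2⟩ := P354v.T.lim_exists hb' hB
    rcases lt_or_eq_of_le h2 with h2 | h2
    · exfalso
      have hz0 : z ∈ Db 0 := ⟨h1, by rw [Nat.cast_zero]; exact h2⟩
      exact hno _ (h.tendsto (q := ⟨z, hz0⟩) (tendsto_subtype_rng.2 hz))
    · exact Or.inl (front_b h h2 hz)
  · push Not at hbd
    refine Or.inr (Or.inr (far h (P354v.T.curve_data hb').1 fun C => ?_))
    obtain ⟨t, ht, h⟩ := hbd C
    exact ⟨t, ⟨by linarith [ht.1], ht.2⟩, h⟩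

end

/-- **The vacuum example.** -/
theorem example_b : ∃ M N ι c, IsSpacetime IsSmooth M ∧ IsVacuum M ∧
    IsGH M ∧ AllCurvEnd M ∧ AllCurvEnd (rev M) ∧ ConnectedSpace M.pt ∧ ConnectedSpace N.pt ∧
      ∀ q < ⊤, IsFutureExtension (IsC0W1 q) M N ι c := by
  let P : PD := ⟨0, K2, 34 * K2, F2 0 1, F2 0 (-1), pdat le_rfl (by norm_num)⟩
  refine ⟨P354n.Dn (@MM P), P354n.Dn (@VV P 1), @io P, @c0 P,
    P354n.isSpacetime_dn (@spacetime_mm P), vacuum P,
    @gh P _ _ _ _ mod_true, fun _ h1 h2 => @ends_b P _ _ _ _ mod_true _ h1 h2,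
    fun _ h1 h2 => @ends_b P.rev _ _ _ _ (mod_false P) _ h1 h2, conn_pb 0, conn_pb 1,
    fun q hq => ?_⟩
  have hqt : q ≠ ⊤ := ne_top_of_lt hq
  refine P354n.isFutureExtension_dn (@extension P _ (max 1 q.toReal) (le_max_left _ _) ?_ ?_)
  · rw [ENNReal.le_ofReal_iff_toReal_le hqt (by positivity)]
    exact le_max_right _ _
  · show (0:ℝ) * max 1 q.toReal < 1
    simp only [zero_mul, zero_lt_one]

end Vale.Agent.P354.H974
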