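import Vale.Agent.P354.H251.Inx
import Vale.Agent.P354.H974.Defs

set_option linter.unusedSectionVars false
set_option maxSynthPendingDepth 3

open scoped Manifold ContDiff
open MeasureTheory Set Topology Filter

namespace Vale.Agent.P354.H974

open Vale.Agent.P354n
open Vale.Agent.P354 (P4 P3 norm_P4_le MB)
open Vale.Agent.P354x (ins)
open Vale.Agent.P354k (Dm Dm_isOpen int_le2 int_k box_sub cpt_box)
open Vale.Agent.P354p (sw3 sw3_cont Sp Sp_symm_apply Sp_symm_mem FrontBox exists_frontData_open)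

/-- **No Lipschitz extension through a front where the curvature is large.** -/
theorem front_big {M N : P354p.Spc} {ι : M.pt → N.pt}
    (hM : P354p.IsSpacetime P354p.IsSmooth M)
    (hg' : P354p.IsSpacetime (P354p.IsC0W1 ⊤) N) (h : IsOpenEmbedding ι) (hI : P354p.IsIsom ι)
    {c : ℝ → N.pt} (hc : P354p.IsFutureCurve N 0 (Icc 0 1) c) {a : ℝ → M.pt}
    (ha : ∀ t ∈ Ico (0:ℝ) 1, ι (a t) = c t)
    {e : M.Chart} {C : ℕ → R4 → ℝ} {z : R4} {r K : ℝ} {k : ℝ → ℝ} {Γ : R4 → R4 → R4 → R4}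
    (hB : FrontBox M e C z r K k)
    (hain : P354p.EndsAt a e (P354p.nullBox z r) z)
    (hΓ : ∀ x ∈ P354p.nullBox z r, P354k.Conn (M.g e) Γ x)
    (hall : ∀ x, cv x = 0 → ‖x - z‖ < r → ∀ c > 0, ∃ p q s t, IsBig k (P354p.nullBox x c) fun y =>
        P354k.Riem (M.g e) Γ y (P354k.fr C y p) (P354k.fr C y q) (P354k.fr C y s)
          (P354k.fr C y t)) : False := by
  have hne : Nonempty M.pt := ⟨a 0⟩
  obtain ⟨e', A, R0, Cc, t0, r1, f, hF, O, hO, ⟨y1, hy1⟩, v0, hv0, hin⟩ :=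
    exists_frontData_open (h := h) le_top hM hg' hI hB hc ha hain
  have hMB : ∀ y ∈ O, ∀ v ∈ Ico v0 0, ins v y ∈ MB (Sp z) r := by
    intro y hy v hv
    obtain ⟨w, hw, hwy, _⟩ := hin y hy v hv
    rw [← hwy]
    exact hF.core.maps (hF.core.DD_sub hw)
  have hv2 : v0 / 2 ∈ Ioo v0 0 := ⟨by linarith, by linarith only [hv0]⟩
  set x : R4 := Sp.symm (ins (v0 / 2) y1) with hx
  have hxn : x ∈ P354p.nullBox z r := by
    have := hMB y1 hy1 (v0 / 2) ⟨hv2.1.le, hv2.2⟩
    rw [Sp_symm_mem] at this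
    exact this
  have hO'o : IsOpen (sw3 ⁻¹' O) := hO.preimage sw3_cont
  have hxO : ((x.1, x.2.2) : ℝ × ℝ × ℝ) ∈ sw3 ⁻¹' O := by
    rw [hx, Sp_symm_apply]
    exact hy1
  obtain ⟨ε, hε, hball⟩ := Metric.isOpen_iff.1 hO'o _ hxO
  have hc10 : 0 < min ε (-v0) := lt_min hε (by linarith only [hv0])
  have hsub := box_sub hball (min_le_left ε (-v0)) (min_le_right ε (-v0))
  have hDbox : ∀ y ∈ Dm O v0, y ∈ P354p.nullBox z r :=
    fun y hy => (P354k.mem_Dm hF hin hy).2.2.2.2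
  have hxz : ‖((x.1, 0, x.2.2) : R4) - z‖ < r := by
    refine lt_of_le_of_lt ?_ hxn.1
    have h3 := norm_P4_le.1 (le_refl ‖x - z‖)
    simp only [Prod.fst_sub, Prod.snd_sub] at h3
    have hz0 : z.2.1 = 0 := hB.base
    refine norm_P4_le.2 ?_
    simp only [Prod.fst_sub, Prod.snd_sub]
    refine ⟨h3.1, ?_, h3.2.2.1, h3.2.2.2⟩
    rw [hz0, sub_zero, abs_zero]
    exact norm_nonneg _
  obtain ⟨p, q, s, t, hbad⟩ := hall (x.1, 0, x.2.2) rfl hxz _ hc10
  obtain ⟨L, hL0, hL⟩ := int_le2 hM hg' hI hB hF hO hin hΓ p q s t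
  obtain ⟨φ, hφ, hφs, hlt⟩ := hbad L
  have hφc := cpt_box hφs
  have hi : Integrable (fun y => (1 + k (P354p.cv y)) * |φ y|) :=
    int_k (hB.dn.intg k (Or.inl rfl)).1 hB.base (hB.dn.intg k (Or.inl rfl)).2 hφ.continuous hφc
      (fun y hy => hDbox y (hsub (hφs hy)))
  exact absurd (hL φ hφ hφc (hφs.trans hsub) hi) (not_le.2 hlt)

lemma fr_half (C : ℕ → R4 → ℝ) (x a : R4) : fr C x a = P354k.fr (half C) x a := by
  have h4 : half C 4 x = C 4 x := by simp [half]
  have h5 : half C 5 x = C 5 x := by simp [half]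
  unfold fr P354k.fr
  rw [h4, h5]
  rfl

section

variable {M N : Spc} {ι : M.pt → N.pt}

theorem IsSpacetime.upL (h : IsSpacetime IsLip M) : IsSpacetime (IsC0W1 ⊤) M where
  tensor := h.tensor
  signature := h.signature
  timelike := h.timelike
  continuous := h.continuous
  regular := fun e a b => P354k.isC0W1_of_locallyLipschitzOn (M.toE e).open_target
    (h.regular e a b)

theorem front_c (hM : IsSpacetime IsSmooth M)
    (hg' : IsSpacetime (IsC0W1 ⊤) N) (h : IsOpenEmbedding ι) (hI : IsIsom ι) {c : ℝ → N.pt}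
    (hc : IsFutureCurve N 0 (Icc 0 1) c) {a : ℝ → M.pt} (ha : ∀ t ∈ Ico (0:ℝ) 1, ι (a t) = c t)
    (hf : EndsAtBlowup M a) : False := by
  obtain ⟨e, C, z, r, K, k, G, hdn, hz, hain, hw, hall⟩ := hf
  obtain ⟨x0, hx0⟩ := hain.nonempty
  have hr := nullBox_r hx0
  have hK := hdn.K_one hx0
  have hdn' : P354p.IsDNBox (Up M) e (half C) (nullBox z r) r (2 * K) k (fun _ => 2 * K) :=
    hdn.up hM hr (fun _ _ => by linarith only [hK]) (fun f hf => by
      rcases hf with rfl | rfl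
      · exact hdn.integrable f (Or.inl rfl)
      · exact const_inLp)
  have hB : P354p.FrontBox (Up M) e (half C) z r (2 * K) k :=
    ⟨hdn', hz, fun x hx => by simp [half, (hw x hx).1, (hw x hx).2.1]⟩
  refine front_big (M := Up M) (N := Up N) hM.up hg'.up h hI.up (hc.up le_rfl) ha hB (Γ := G)
    hain (fun x hx => (hw x hx).2.2) (fun x hx hxr c hc => ?_)
  obtain ⟨p, q, s, t, h1⟩ := hall x hx hxr c hc
  refine ⟨p, q, s, t, ?_⟩
  simp only [fr_half] at h1
  exact h1

/-- **The local theorem.** -/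
theorem local_c (hM : IsSpacetime IsSmooth M)
    (hg' : IsSpacetime (IsC0W1 ⊤) N) (h : IsOpenEmbedding ι) (hI : IsIsom ι) {c : ℝ → N.pt}
    (hc : IsFutureCurve N 0 (Icc 0 1) c) {a : ℝ → M.pt} (ha : ∀ t ∈ Ico (0:ℝ) 1, ι (a t) = c t) :
    ¬ CurvEnds M a := by
  rintro (hf | hcor | hfar)
  · exact front_c hM hg' h hI hc ha hf
  · obtain ⟨e, C, z, r, K, k, hdn, hu, hv, hain, hcl⟩ := hcor
    obtain ⟨x0, hx0⟩ := hain.nonempty
    have hr := nullBox_r hx0.1
    have hdn' : P354p.IsDNBox (Up M) e (half C) (cornerBox z r) r (2 * K) k k :=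
      hdn.up hM hr (fun _ _ => le_rfl) hdn.integrable
    obtain ⟨a', c', hc', ha', hcur, y, hy, h1, h2, h3⟩ := P354p.corner_stepE le_top hM.up hg'.up h
      hI.up (hc.up le_rfl) ha hdn' hu hv hain
    exact front_c hM hg' h hI (IsFutureCurve.of hc') ha' (hcl a' (IsFutureCurve.of hcur) y hy
      h1 h2 h3)
  · exact P354p.not_isFar hM.up hg'.up h hI.up (hc.up le_rfl) ha (isFar_up hfar)

/-- **No future extension.** -/
theorem future_c (hM : IsSpacetime IsSmooth M) (hall : AllCurvEnd M) {c : ℝ → N.pt}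
    (hE : IsFutureExtension (IsC0W1 ⊤) M N ι c) : False := by
  obtain ⟨a, h1, h2, h3⟩ : ∃ a, IsFutureCurve M 0 (Ico 0 1) a ∧
      (∀ x, ¬ Tendsto a (𝓝[<] 1) (𝓝 x)) ∧ ¬ CurvEnds M a := by
    have h0 : (0:ℝ) ∈ Ico (0:ℝ) 1 := by constructor <;> norm_num
    have hex : ∀ t : ℝ, ∃ x : M.pt, t ∈ Ico (0:ℝ) 1 → ι x = c t := by
      intro t
      by_cases ht : t ∈ Ico (0:ℝ) 1
      · obtain ⟨x, hx⟩ := hE.curve_mem t ht
        exact ⟨x, fun _ => hx⟩
      · obtain ⟨x, hx⟩ := hE.curve_mem 0 h0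
        exact ⟨x, fun h => absurd h ht⟩
    choose a ha using hex
    have ha' : ∀ t ∈ Ico (0:ℝ) 1, ι (a t) = c t := fun t ht => ha t ht
    refine ⟨a, IsFutureCurve.of (P354p.ray_of_curve (M := Up M) (N := Up N) hM.up
      hE.spacetime.up hE.embedding hE.isometry.up (hE.curve.up le_rfl) ha'), ?_,
      local_c hM hE.spacetime hE.embedding hE.isometry hE.curve ha'⟩
    intro x hx
    have h1 : Tendsto (fun t => ι (a t)) (𝓝[<] 1) (𝓝 (ι x)) :=
      (hE.embedding.continuous.tendsto x).comp hx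
    have h2 : Tendsto c (𝓝[<] 1) (𝓝 (c 1)) := by
      have h3 : ContinuousWithinAt c (Icc 0 1) 1 := hE.curve.1 1 (by constructor <;> norm_num)
      refine h3.mono_left ?_
      rw [← nhdsWithin_Ico_eq_nhdsLT (zero_lt_one (α := ℝ))]
      exact nhdsWithin_mono _ Ico_subset_Icc_self
    have h4 : Tendsto (fun t => ι (a t)) (𝓝[<] 1) (𝓝 (c 1)) := by
      refine h2.congr' ?_
      filter_upwards [Ico_mem_nhdsLT (zero_lt_one (α := ℝ))] with t ht
      exact (ha' t ht).symm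
    have h5 : ι x = c 1 := tendsto_nhds_unique h1 h4
    have h6 := hE.curve_end
    rw [hE.embedding.isOpen_range.frontier_eq] at h6
    exact h6.2 ⟨x, h5⟩
  exact h3 (hall a h1 h2)

/-- **No extension.** -/
theorem both_c (hM : IsSpacetime IsSmooth M) (hne : Nonempty M.pt)
    (h1 : AllCurvEnd M) (h2 : AllCurvEnd (rev M)) : IsInext (IsC0W1 ⊤) M := by
  intro N ι hN hc hemb hI
  by_contra hnu
  have hNu : P354p.IsSpacetime (IsC0W1 ⊤) (Up N) := hN.up
  obtain ⟨c, hc1, hc2, hc3⟩ := P354v.bdry (N := Up N) (fun f D h => h.1) hNu hc hemb.isOpen_range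
    (range_nonempty ι) hnu
  rcases hc3 with hc3 | hc3
  · exact future_c hM h1 (N := N) (ι := ι) (c := c)
      { spacetime := hN
        embedding := hemb
        isometry := hI
        proper := hnu
        curve := isFutureCurve_dn (M := Up N) hc3
        curve_mem := hc1
        curve_end := hc2 }
  · exact future_c (M := rev M) (P354v.T.N.rev_spacetime hM) h2 (N := rev N) (ι := ι) (c := c)
      { spacetime := P354v.T.N.rev_spacetime hN
        embedding := hemb
        isometry := P354v.T.N.rev_isom hN hemb.continuous hI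
        proper := hnu
        curve := isFutureCurve_dn (M := P354v.rv (Up N)) hc3
        curve_mem := hc1
        curve_end := hc2 }

end

end Vale.Agent.P354.H974
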